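import Vale.Agent.P181.TS.H547.U
import Vale.Agent.P181.TS.H935.Gen

/-! # P181, TS: the random columns exist (no hypothesis) -/

set_option autoImplicit false

namespace Vale.Agent.P181.TS.H547

/-- **[TS-U]**, unconditional -/
theorem uStmt_holds : UStmt := uStmt H935.genCount

end Vale.Agent.P181.TS.H547
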