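import Vale.Agent.P181.TS.Spec

/-!
# P181, TS: the random columns (`UStmt` from `GenCount`)

A column: a random half of the classes gets the additional letters, every other class gets one
letter; inside every class a uniformly random set of the prescribed size.
-/

set_option autoImplicit false

namespace Vale.Agent.P181.TS.H547

open Finset Vale.Agent.P181.H59 Vale.Agent.P181.TS

/-! ### Samples -/

/-- a set of `n j` letters in every class `j` -/
abbrev Smp {b R : ℕ} (cl : Fin b → Fin R) (n : Fin R → ℕ) : Type :=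
  (j : Fin R) → ((cls cl j).powersetCard (n j) : Finset (Finset (Fin b)))

variable {b R : ℕ} {cl : Fin b → Fin R} {n : Fin R → ℕ}

/-- the union of a sample -/
def uni (ω : Smp cl n) : Finset (Fin b) :=
  univ.biUnion fun j => (ω j : Finset (Fin b))

theorem sub_cls (ω : Smp cl n) (j : Fin R) : (ω j : Finset (Fin b)) ⊆ cls cl j :=
  (mem_powersetCard.1 (ω j).2).1

theorem card_j (ω : Smp cl n) (j : Fin R) : (ω j : Finset (Fin b)).card = n j :=
  (mem_powersetCard.1 (ω j).2).2

theorem mem_cls {j : Fin R} {p : Fin b} : p ∈ cls cl j ↔ cl p = j := by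
  simp [cls]

theorem mem_uni {ω : Smp cl n} {p : Fin b} : p ∈ uni ω ↔ p ∈ (ω (cl p) : Finset (Fin b)) := by
  simp only [uni, mem_biUnion, mem_univ, true_and]
  constructor
  · rintro ⟨j, hj⟩
    have h := mem_cls.1 (sub_cls ω j hj)
    subst h
    exact hj
  · intro h
    exact ⟨_, h⟩

theorem card_uni (ω : Smp cl n) : (uni ω).card = ∑ j, n j := by
  rw [uni, card_biUnion]
  · exact Finset.sum_congr rfl fun j _ => card_j ω j
  · intro i _ j _ hij
    rw [Function.onFun, Finset.disjoint_left]
    intro p hp hq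
    exact hij ((mem_cls.1 (sub_cls ω i hp)).symm.trans (mem_cls.1 (sub_cls ω j hq)))

theorem miss_uni (ω : Smp cl n) (hn : ∀ j, 1 ≤ n j) : miss cl (uni ω) = ∅ := by
  rw [Finset.eq_empty_iff_forall_notMem]
  intro j hj
  simp only [miss, mem_filter, mem_univ, true_and] at hj
  have h1 : 0 < (ω j : Finset (Fin b)).card := by
    rw [card_j]
    exact hn j
  obtain ⟨p, hp⟩ := Finset.card_pos.1 h1
  have hc := mem_cls.1 (sub_cls ω j hp)
  refine hj p ?_ hc
  rw [mem_uni, hc]
  exact hp

theorem card_smp : Fintype.card (Smp cl n) = ∏ j, (cls cl j).card.choose (n j) := by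
  rw [Fintype.card_pi]
  refine Finset.prod_congr rfl fun j _ => ?_
  rw [Fintype.card_coe, card_powersetCard]

theorem card_one (E T : Finset (Fin b)) (k : ℕ) :
    (univ.filter fun S : (E.powersetCard k : Finset (Finset (Fin b))) =>
      Disjoint (S : Finset (Fin b)) T).card = (E \ T).card.choose k := by
  rw [← card_powersetCard, ← Finset.card_map (Function.Embedding.subtype _)]
  congr 1
  ext S
  simp only [mem_map, mem_filter, mem_univ, true_and, Function.Embedding.subtype_apply,
    mem_powersetCard, subset_sdiff]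
  constructor
  · rintro ⟨S', hS, rfl⟩
    have h := mem_powersetCard.1 S'.2
    exact ⟨⟨h.1, hS⟩, h.2⟩
  · rintro ⟨⟨h1, h2⟩, h3⟩
    exact ⟨⟨S, mem_powersetCard.2 ⟨h1, h3⟩⟩, h2, rfl⟩

theorem card_avoid (T : Finset (Fin b)) :
    (univ.filter fun ω : Smp cl n => Disjoint (uni ω) T).card =
      ∏ j, ((cls cl j) \ T).card.choose (n j) := by
  have h : (univ.filter fun ω : Smp cl n => Disjoint (uni ω) T) =
      Fintype.piFinset fun j => univ.filter fun S :
        ((cls cl j).powersetCard (n j) : Finset (Finset (Fin b))) =>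
          Disjoint (S : Finset (Fin b)) T := by
    ext ω
    simp only [mem_filter, mem_univ, true_and, Fintype.mem_piFinset, uni, disjoint_biUnion_left,
      forall_const]
  rw [h, Fintype.card_piFinset]
  exact Finset.prod_congr rfl fun j _ => card_one _ _ _

/-! ### Two numerical lemmas -/

theorem exp_le_one_sub {p : ℝ} (h0 : 0 ≤ p) (h1 : p ≤ 7 / 10) :
    Real.exp (-(2 * p)) ≤ 1 - p := by
  have h := Real.quadratic_le_exp_of_nonneg (x := 2 * p) (by linarith)
  have hpos : 0 < Real.exp (2 * p) := Real.exp_pos _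
  have h2 : 1 ≤ Real.exp (2 * p) * (1 - p) := by
    have h3 : (1 + 2 * p + (2 * p) ^ 2 / 2) * (1 - p) ≤ Real.exp (2 * p) * (1 - p) :=
      mul_le_mul_of_nonneg_right h (by linarith)
    have h4 : (1 : ℝ) ≤ (1 + 2 * p + (2 * p) ^ 2 / 2) * (1 - p) := by
      have h5 : 0 ≤ p * (1 - 2 * p ^ 2) := by
        apply mul_nonneg h0
        nlinarith
      nlinarith
    linarith
  have h6 : Real.exp (-(2 * p)) * Real.exp (2 * p) = 1 := by
    rw [← Real.exp_add]
    simp
  have h7 : 0 < Real.exp (-(2 * p)) := Real.exp_pos _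
  calc Real.exp (-(2 * p)) = Real.exp (-(2 * p)) * 1 := by ring
    _ ≤ Real.exp (-(2 * p)) * (Real.exp (2 * p) * (1 - p)) :=
        mul_le_mul_of_nonneg_left h2 h7.le
    _ = 1 - p := by rw [← mul_assoc, h6, one_mul]

theorem choose_ge (e x τ : ℕ) (he : 10 ^ 6 ≤ e) (hx : e ≤ x) (hτ : 10 * τ ≤ 6 * e) :
    ∀ k : ℕ, k ≤ 256 → (x.choose k : ℝ) * Real.exp (-(3 * k * τ / e)) ≤ ((x - τ).choose k : ℝ) := by
  intro k
  induction k with
  | zero => simp
  | succ k ih =>
    intro hk
    have ih' := ih (by omega)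
    have heR : (10 ^ 6 : ℝ) ≤ e := by exact_mod_cast he
    have hxR : (e : ℝ) ≤ x := by exact_mod_cast hx
    have hτR : (10 : ℝ) * τ ≤ 6 * e := by exact_mod_cast hτ
    have hkR : (k : ℝ) ≤ 256 := by exact_mod_cast (by omega : k ≤ 256)
    have hτ0 : (0 : ℝ) ≤ τ := Nat.cast_nonneg _
    have he0 : (0 : ℝ) < e := by linarith
    have hd : (0 : ℝ) < (x : ℝ) - k := by linarith
    have h1 : (x.choose (k + 1) : ℝ) * (k + 1) = x.choose k * ((x : ℝ) - k) := by
      have h := Nat.choose_succ_right_eq x k
      have h' : ((x - k : ℕ) : ℝ) = (x : ℝ) - k := Nat.cast_sub (by omega)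
      rw [← h']
      exact_mod_cast h
    have h2 : ((x - τ).choose (k + 1) : ℝ) * (k + 1) =
        (x - τ).choose k * ((x : ℝ) - τ - k) := by
      have h := Nat.choose_succ_right_eq (x - τ) k
      have h' : ((x - τ - k : ℕ) : ℝ) = (x : ℝ) - τ - k := by
        rw [Nat.cast_sub (by omega), Nat.cast_sub (by omega)]
      rw [← h']
      exact_mod_cast h
    set p : ℝ := τ / ((x : ℝ) - k) with hp
    have hp0 : 0 ≤ p := by positivity
    have hp1 : p ≤ 7 / 10 := by
      rw [hp, div_le_iff₀ hd]
      nlinarith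
    have h3 : Real.exp (-(3 * τ / e)) ≤ 1 - p := by
      refine le_trans (Real.exp_le_exp.2 ?_) (exp_le_one_sub hp0 hp1)
      have h4 : 2 * p ≤ 3 * τ / e := by
        rw [hp, ← mul_div_assoc, div_le_div_iff₀ hd he0]
        have : 2 * (e : ℝ) ≤ 3 * ((x : ℝ) - k) := by linarith
        nlinarith
      linarith
    have h5 : ((x : ℝ) - k) * Real.exp (-(3 * τ / e)) ≤ (x : ℝ) - τ - k := by
      have h6 : ((x : ℝ) - k) * (1 - p) = (x : ℝ) - τ - k := by
        rw [hp]
        field_simp
        ring
      rw [← h6]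
      exact mul_le_mul_of_nonneg_left h3 hd.le
    have h7 : Real.exp (-(3 * ((k + 1 : ℕ) : ℝ) * τ / e)) =
        Real.exp (-(3 * k * τ / e)) * Real.exp (-(3 * τ / e)) := by
      rw [← Real.exp_add]
      congr 1
      push_cast
      ring
    have h8 : (0 : ℝ) < (k : ℝ) + 1 := by positivity
    have h9 : ((x.choose (k + 1) : ℝ) * Real.exp (-(3 * ((k + 1 : ℕ) : ℝ) * τ / e))) * (k + 1) ≤
        ((x - τ).choose (k + 1) : ℝ) * (k + 1) := by
      rw [h2, h7]
      calc (x.choose (k + 1) : ℝ) * (Real.exp (-(3 * k * τ / e)) * Real.exp (-(3 * τ / e))) *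
            (k + 1)
          = ((x.choose (k + 1) : ℝ) * (k + 1)) * (Real.exp (-(3 * k * τ / e)) *
            Real.exp (-(3 * τ / e))) := by ring
        _ = (x.choose k * Real.exp (-(3 * k * τ / e))) *
            (((x : ℝ) - k) * Real.exp (-(3 * τ / e))) := by rw [h1]; ring
        _ ≤ ((x - τ).choose k : ℝ) * ((x : ℝ) - τ - k) := by
            apply mul_le_mul ih' h5 (by positivity) (Nat.cast_nonneg _)
    exact le_of_mul_le_mul_right h9 h8

/-! ### Probabilities -/

theorem card_sdiff_cls (T : Finset (Fin b)) (j : Fin R) :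
    ((cls cl j) \ T).card = (cls cl j).card - (T ∩ cls cl j).card := by
  rw [Finset.card_sdiff]

theorem sum_inter (T : Finset (Fin b)) : ∑ j, (T ∩ cls cl j).card = T.card := by
  rw [Finset.card_eq_sum_card_fiberwise (f := cl) (t := univ) (fun p _ => by simp)]
  refine Finset.sum_congr rfl fun j _ => ?_
  congr 1
  ext p
  simp [cls]

/-- the probability to avoid `T`, the class `i` contributing one letter -/
theorem avoid_ge (e : ℕ) (T : Finset (Fin b)) (i : Fin R) (he : 10 ^ 6 ≤ e)
    (hR : 1000 * R ≤ e) (hc : ∀ j, e ≤ (cls cl j).card ∧ (cls cl j).card ≤ e + R)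
    (hT : T.card ≤ e + R) (hi : ∀ j, (T ∩ cls cl j).card ≤ (T ∩ cls cl i).card)
    (hn : ∀ j, n j ≤ 256) (hni : n i = 1) :
    ((cls cl i \ T).card : ℝ) / (cls cl i).card * Real.exp (-770) * Fintype.card (Smp cl n) ≤
      ((univ.filter fun ω : Smp cl n => Disjoint (uni ω) T).card : ℝ) := by
  classical
  have heR : (10 ^ 6 : ℝ) ≤ e := by exact_mod_cast he
  have he0 : (0 : ℝ) < e := by linarith
  have hei : (0 : ℝ) < (cls cl i).card := by
    have := (hc i).1
    exact_mod_cast (by omega : 0 < (cls cl i).card)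
  rw [card_avoid, card_smp]
  push_cast
  rw [← Finset.mul_prod_erase univ (fun j => ((cls cl j).card.choose (n j) : ℝ)) (mem_univ i),
    ← Finset.mul_prod_erase univ (fun j => ((cls cl j \ T).card.choose (n j) : ℝ)) (mem_univ i),
    hni]
  simp only [Nat.choose_one_right]
  have h1 : ∀ j ∈ univ.erase i, ((cls cl j).card.choose (n j) : ℝ) *
      Real.exp (-(768 * (T ∩ cls cl j).card / e)) ≤ ((cls cl j \ T).card.choose (n j) : ℝ) := by
    intro j hj
    have hji : j ≠ i := (mem_erase.1 hj).1
    rw [card_sdiff_cls]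
    have hsum : (T ∩ cls cl j).card + (T ∩ cls cl i).card ≤ T.card := by
      rw [← sum_inter (cl := cl) T]
      rw [← Finset.sum_pair (f := fun j => (T ∩ cls cl j).card) hji]
      exact Finset.sum_le_sum_of_subset (subset_univ _)
    have hj2 := hi j
    have h := choose_ge e (cls cl j).card (T ∩ cls cl j).card he (hc j).1 (by omega) (n j) (hn j)
    refine le_trans ?_ h
    apply mul_le_mul_of_nonneg_left _ (Nat.cast_nonneg _)
    apply Real.exp_le_exp.2
    apply neg_le_neg
    apply div_le_div_of_nonneg_right _ he0.le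
    have hnj : (n j : ℝ) ≤ 256 := by exact_mod_cast hn j
    have ht0 : (0 : ℝ) ≤ (T ∩ cls cl j).card := Nat.cast_nonneg _
    nlinarith
  have h2 : (∏ j ∈ univ.erase i, ((cls cl j).card.choose (n j) : ℝ)) * Real.exp (-770) ≤
      ∏ j ∈ univ.erase i, ((cls cl j \ T).card.choose (n j) : ℝ) := by
    refine le_trans ?_ (Finset.prod_le_prod (fun j _ => by positivity) h1)
    rw [Finset.prod_mul_distrib]
    apply mul_le_mul_of_nonneg_left _ (by positivity)
    rw [← Real.exp_sum]
    apply Real.exp_le_exp.2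
    rw [Finset.sum_neg_distrib]
    apply neg_le_neg
    rw [← Finset.sum_div, ← Finset.mul_sum, div_le_iff₀ he0]
    have h3 : (∑ j ∈ univ.erase i, ((T ∩ cls cl j).card : ℝ)) ≤ T.card := by
      rw [← sum_inter (cl := cl) T]
      push_cast
      exact Finset.sum_le_sum_of_subset_of_nonneg (subset_univ _) fun _ _ _ => Nat.cast_nonneg _
    have h4 : (T.card : ℝ) ≤ e + R := by exact_mod_cast hT
    have h5 : (1000 : ℝ) * R ≤ e := by exact_mod_cast hR
    nlinarith
  calc ((cls cl i \ T).card : ℝ) / (cls cl i).card * Real.exp (-770) *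
        ((cls cl i).card * ∏ j ∈ univ.erase i, ((cls cl j).card.choose (n j) : ℝ))
      = (cls cl i \ T).card * ((∏ j ∈ univ.erase i, ((cls cl j).card.choose (n j) : ℝ)) *
        Real.exp (-770)) := by
        field_simp
    _ ≤ _ := mul_le_mul_of_nonneg_left h2 (Nat.cast_nonneg _)

/-- the probability to contain `p` -/
theorem mem_le (e : ℕ) (p : Fin b) (he : 10 ^ 6 ≤ e) (hc : ∀ j, e ≤ (cls cl j).card)
    (hn : ∀ j, n j ≤ 256) :
    ((univ.filter fun ω : Smp cl n => p ∈ uni ω).card : ℝ) ≤
      256 / e * Fintype.card (Smp cl n) := by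
  classical
  have heR : (10 ^ 6 : ℝ) ≤ e := by exact_mod_cast he
  have he0 : (0 : ℝ) < e := by linarith
  set j := cl p with hj
  have hx : 0 < (cls cl j).card := by have := hc j; omega
  have hxR : (0 : ℝ) < (cls cl j).card := by exact_mod_cast hx
  have hcompl : (univ.filter fun ω : Smp cl n => p ∈ uni ω).card +
      (univ.filter fun ω : Smp cl n => Disjoint (uni ω) {p}).card = Fintype.card (Smp cl n) := by
    rw [← Finset.card_univ, ← Finset.card_filter_add_card_filter_not (s := univ)
      (fun ω : Smp cl n => p ∈ uni ω)]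
    congr 2
    ext ω
    simp
  have hav : ((univ.filter fun ω : Smp cl n => Disjoint (uni ω) {p}).card : ℝ) *
      (cls cl j).card = ((cls cl j).card - n j) * Fintype.card (Smp cl n) := by
    rw [card_avoid, card_smp]
    push_cast
    rw [← Finset.mul_prod_erase univ (fun j => ((cls cl j).card.choose (n j) : ℝ)) (mem_univ j),
      ← Finset.mul_prod_erase univ (fun j => ((cls cl j \ {p}).card.choose (n j) : ℝ))
        (mem_univ j)]
    have h1 : ∏ k ∈ univ.erase j, ((cls cl k \ {p}).card.choose (n k) : ℝ) =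
        ∏ k ∈ univ.erase j, ((cls cl k).card.choose (n k) : ℝ) := by
      refine Finset.prod_congr rfl fun k hk => ?_
      have hkj : k ≠ j := (mem_erase.1 hk).1
      rw [Finset.sdiff_singleton_eq_erase, Finset.erase_eq_of_notMem]
      intro h
      exact hkj (mem_cls.1 h).symm
    have h2 : (cls cl j \ {p}).card = (cls cl j).card - 1 := by
      rw [Finset.sdiff_singleton_eq_erase, Finset.card_erase_of_mem (mem_cls.2 rfl)]
    rw [h1, h2]
    obtain ⟨x, hx'⟩ : ∃ x, (cls cl j).card = x + 1 := ⟨_, (Nat.succ_pred_eq_of_pos hx).symm⟩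
    have hnx : n j ≤ x + 1 := by
      have := hc j
      have := hn j
      omega
    rw [hx']
    simp only [Nat.add_sub_cancel]
    have h3 : (x.choose (n j) : ℝ) * ((x : ℝ) + 1) =
        ((x + 1).choose (n j) : ℝ) * ((x : ℝ) + 1 - n j) := by
      have h := Nat.choose_mul_succ_eq x (n j)
      have h' : ((x + 1 - n j : ℕ) : ℝ) = (x : ℝ) + 1 - n j := by
        rw [Nat.cast_sub hnx]
        push_cast
        ring
      rw [← h']
      exact_mod_cast h
    push_cast
    linear_combination (∏ k ∈ univ.erase j, ((cls cl k).card.choose (n k) : ℝ)) * h3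
  have h5 : ((univ.filter fun ω : Smp cl n => p ∈ uni ω).card : ℝ) * (cls cl j).card =
      n j * Fintype.card (Smp cl n) := by
    have h6 : ((univ.filter fun ω : Smp cl n => p ∈ uni ω).card : ℝ) +
      (univ.filter fun ω : Smp cl n => Disjoint (uni ω) {p}).card = Fintype.card (Smp cl n) := by
      exact_mod_cast hcompl
    have h7 : ((univ.filter fun ω : Smp cl n => p ∈ uni ω).card : ℝ) =
        Fintype.card (Smp cl n) -
          (univ.filter fun ω : Smp cl n => Disjoint (uni ω) {p}).card := by linarith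
    rw [h7, sub_mul, hav]
    ring
  have h8 : ((univ.filter fun ω : Smp cl n => p ∈ uni ω).card : ℝ) * e ≤
      256 * Fintype.card (Smp cl n) := by
    have h9 : (e : ℝ) ≤ (cls cl j).card := by exact_mod_cast hc j
    have h10 : (n j : ℝ) ≤ 256 := by exact_mod_cast hn j
    calc ((univ.filter fun ω : Smp cl n => p ∈ uni ω).card : ℝ) * e
        ≤ ((univ.filter fun ω : Smp cl n => p ∈ uni ω).card : ℝ) * (cls cl j).card :=
          mul_le_mul_of_nonneg_left h9 (Nat.cast_nonneg _)
      _ = n j * Fintype.card (Smp cl n) := h5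
      _ ≤ _ := mul_le_mul_of_nonneg_right h10 (Nat.cast_nonneg _)
  rw [div_mul_eq_mul_div, le_div_iff₀ he0]
  exact h8

/-! ### The numbers of letters in the classes -/

/-- the additional letters of the `k`-th class of the chosen half -/
def exl (h X k : ℕ) : ℕ := X / h + if k < X % h then 1 else 0

theorem sum_exl (h X : ℕ) (hh : 0 < h) : ∑ k ∈ range h, exl h X k = X := by
  unfold exl
  rw [Finset.sum_add_distrib, Finset.sum_const, card_range, smul_eq_mul]
  have h1 : ∑ k ∈ range h, (if k < X % h then 1 else 0) = X % h := by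
    rw [← Finset.card_filter]
    have h2 : (range h).filter (fun k => k < X % h) = range (X % h) := by
      ext k
      simp only [mem_filter, mem_range]
      have := Nat.mod_lt X hh
      omega
    rw [h2, card_range]
  rw [h1]
  exact Nat.div_add_mod X h

/-- the numbers of letters: `t = false`: the lower half gets the additional letters -/
def nn (h X : ℕ) (t : Bool) (j : Fin (2 * h)) : ℕ :=
  1 + if t then (if h ≤ (j : ℕ) then exl h X (j - h) else 0)
    else (if (j : ℕ) < h then exl h X j else 0)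

theorem sum_nn (h X : ℕ) (hh : 0 < h) (t : Bool) : ∑ j : Fin (2 * h), nn h X t j = 2 * h + X := by
  unfold nn
  rw [Finset.sum_add_distrib]
  simp only [Finset.sum_const, card_univ, Fintype.card_fin, smul_eq_mul, mul_one]
  congr 1
  have h1 : ∑ j : Fin (2 * h), (if t then (if h ≤ (j : ℕ) then exl h X (j - h) else 0)
      else (if (j : ℕ) < h then exl h X j else 0)) =
      ∑ k ∈ range (h + h), (if t then (if h ≤ k then exl h X (k - h) else 0)
      else (if k < h then exl h X k else 0)) := by
    rw [← two_mul]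
    exact Fin.sum_univ_eq_sum_range (fun k => if t then (if h ≤ k then exl h X (k - h) else 0)
      else (if k < h then exl h X k else 0)) (2 * h)
  rw [h1, Finset.sum_range_add]
  cases t
  · simp only [Bool.false_eq_true, if_false]
    have h2 : ∑ k ∈ range h, (if k < h then exl h X k else 0) = X := by
      refine Eq.trans (Finset.sum_congr rfl fun k hk => ?_) (sum_exl h X hh)
      rw [if_pos (mem_range.1 hk)]
    have h3 : ∑ k ∈ range h, (if h + k < h then exl h X (h + k) else 0) = 0 := by
      refine Finset.sum_eq_zero fun k _ => ?_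
      rw [if_neg (by omega)]
    rw [h2, h3, add_zero]
  · simp only [if_true]
    have h2 : ∑ k ∈ range h, (if h ≤ h + k then exl h X (h + k - h) else 0) = X := by
      refine Eq.trans (Finset.sum_congr rfl fun k hk => ?_) (sum_exl h X hh)
      rw [if_pos (by omega), Nat.add_sub_cancel_left]
    have h3 : ∑ k ∈ range h, (if h ≤ k then exl h X (k - h) else 0) = 0 := by
      refine Finset.sum_eq_zero fun k hk => ?_
      rw [if_neg (by have := mem_range.1 hk; omega)]
    rw [h2, h3, zero_add]

theorem exl_le (h X k : ℕ) (hh : 0 < h) (hX : X ≤ 254 * h) : exl h X k ≤ 255 := by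
  unfold exl
  have h1 : X / h ≤ 254 := by
    rw [← Nat.mul_div_cancel 254 hh]
    exact Nat.div_le_div_right hX
  split_ifs <;> omega

theorem nn_le (h X : ℕ) (hh : 0 < h) (hX : X ≤ 254 * h) (t : Bool) (j : Fin (2 * h)) :
    nn h X t j ≤ 256 := by
  unfold nn
  have h1 := exl_le h X ((j : ℕ) - h) hh hX
  have h2 := exl_le h X (j : ℕ) hh hX
  split_ifs <;> omega

theorem nn_pos (h X : ℕ) (t : Bool) (j : Fin (2 * h)) : 1 ≤ nn h X t j := by
  unfold nn
  omega

/-! ### The columns -/

/-- a random column -/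
abbrev Col {b h : ℕ} (cl : Fin b → Fin (2 * h)) (X : ℕ) : Type :=
  Bool × Smp cl (nn h X false) × Smp cl (nn h X true)

/-- its letters -/
def col {b h : ℕ} {cl : Fin b → Fin (2 * h)} {X : ℕ} (ω : Col cl X) : Finset (Fin b) :=
  if ω.1 then uni ω.2.2 else uni ω.2.1

section
variable {h X e : ℕ} {cl : Fin b → Fin (2 * h)}

theorem card_col (hh : 0 < h) (ω : Col cl X) : (col ω).card = 2 * h + X := by
  unfold col
  split_ifs <;> rw [card_uni, sum_nn _ _ hh]

theorem miss_col (ω : Col cl X) : miss cl (col ω) = ∅ := by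
  unfold col
  split_ifs
  · exact miss_uni _ fun j => nn_pos _ _ _ _
  · exact miss_uni _ fun j => nn_pos _ _ _ _

theorem card_Col : (Fintype.card (Col cl X) : ℝ) =
    2 * ((Fintype.card (Smp cl (nn h X false)) : ℝ) * Fintype.card (Smp cl (nn h X true))) := by
  rw [Fintype.card_prod, Fintype.card_prod, Fintype.card_bool]
  push_cast
  ring

theorem filt_ge (P : Finset (Fin b) → Prop) [DecidablePred P] :
    ((univ.filter fun ω : Smp cl (nn h X false) => P (uni ω)).card : ℝ) *
        Fintype.card (Smp cl (nn h X true)) +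
      Fintype.card (Smp cl (nn h X false)) *
        ((univ.filter fun ω : Smp cl (nn h X true) => P (uni ω)).card : ℝ) =
      ((univ.filter fun ω : Col cl X => P (col ω)).card : ℝ) := by
  classical
  have h1 : (univ.filter fun ω : Col cl X => P (col ω)) =
      (({false} : Finset Bool) ×ˢ ((univ.filter fun ω : Smp cl (nn h X false) => P (uni ω)) ×ˢ
        (univ : Finset (Smp cl (nn h X true))))) ∪
      (({true} : Finset Bool) ×ˢ ((univ : Finset (Smp cl (nn h X false))) ×ˢ
        (univ.filter fun ω : Smp cl (nn h X true) => P (uni ω)))) := by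
    ext ⟨t, ω0, ω1⟩
    rw [mem_filter, mem_union, mem_product, mem_product, mem_product, mem_product, mem_filter,
      mem_filter]
    cases t <;> simp [col]
  rw [h1, Finset.card_union_of_disjoint]
  · simp only [card_product, card_singleton, one_mul, card_univ]
    push_cast
    ring
  · rw [Finset.disjoint_left]
    rintro ⟨t, ω0, ω1⟩ h2 h3
    simp only [mem_product, mem_singleton] at h2 h3
    rw [h2.1] at h3
    exact absurd h3.1 (by decide)

theorem col_mem_le (hh : 0 < h) (hX : X ≤ 254 * h) (he : 10 ^ 6 ≤ e)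
    (hc : ∀ j, e ≤ (cls cl j).card) (p : Fin b) :
    ((univ.filter fun ω : Col cl X => p ∈ col ω).card : ℝ) ≤
      256 / e * Fintype.card (Col cl X) := by
  rw [← filt_ge (fun S => p ∈ S), card_Col]
  have h1 := mem_le (n := nn h X false) e p he hc (nn_le h X hh hX false)
  have h2 := mem_le (n := nn h X true) e p he hc (nn_le h X hh hX true)
  have h3 : (0 : ℝ) ≤ Fintype.card (Smp cl (nn h X false)) := Nat.cast_nonneg _
  have h4 : (0 : ℝ) ≤ Fintype.card (Smp cl (nn h X true)) := Nat.cast_nonneg _
  have h5 := mul_le_mul_of_nonneg_right h1 h4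
  have h6 := mul_le_mul_of_nonneg_left h2 h3
  nlinarith

theorem col_avoid_ge (hh : 0 < h) (hX : X ≤ 254 * h) (he : 10 ^ 6 ≤ e)
    (hR : 1000 * (2 * h) ≤ e) (hc : ∀ j, e ≤ (cls cl j).card ∧ (cls cl j).card ≤ e + 2 * h)
    (T : Finset (Fin b)) (i : Fin (2 * h)) (hT : T.card ≤ e + 2 * h)
    (hi : ∀ j, (T ∩ cls cl j).card ≤ (T ∩ cls cl i).card) :
    ((cls cl i \ T).card : ℝ) / (3 * Real.exp 770 * e) * Fintype.card (Col cl X) ≤
      ((univ.filter fun ω : Col cl X => Disjoint (col ω) T).card : ℝ) := by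
  rw [← filt_ge (fun S => Disjoint S T), card_Col]
  have heR : (10 ^ 6 : ℝ) ≤ e := by exact_mod_cast he
  have he0 : (0 : ℝ) < e := by linarith
  have h3 : (0 : ℝ) ≤ Fintype.card (Smp cl (nn h X false)) := Nat.cast_nonneg _
  have h4 : (0 : ℝ) ≤ Fintype.card (Smp cl (nn h X true)) := Nat.cast_nonneg _
  have hk : (0 : ℝ) ≤ (cls cl i \ T).card := Nat.cast_nonneg _
  have hei : (0 : ℝ) < (cls cl i).card := by
    have := (hc i).1
    exact_mod_cast (by omega : 0 < (cls cl i).card)
  have hei2 : ((cls cl i).card : ℝ) ≤ (3 / 2) * e := by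
    have h5 : ((cls cl i).card : ℝ) ≤ e + 2 * h := by exact_mod_cast (hc i).2
    have h6 : (1000 : ℝ) * (2 * h) ≤ e := by exact_mod_cast hR
    linarith
  have hq : ((cls cl i \ T).card : ℝ) / (3 * Real.exp 770 * e) * 2 ≤
      ((cls cl i \ T).card : ℝ) / (cls cl i).card * Real.exp (-770) := by
    have h7 : ((cls cl i \ T).card : ℝ) / (3 * Real.exp 770 * e) * 2 =
        ((cls cl i \ T).card : ℝ) / ((3 / 2) * e) * Real.exp (-770) := by
      rw [Real.exp_neg]
      have := Real.exp_pos 770
      field_simp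
    rw [h7]
    apply mul_le_mul_of_nonneg_right _ (Real.exp_pos _).le
    exact div_le_div_of_nonneg_left hk hei hei2
  by_cases hih : (i : ℕ) < h
  · have hni : nn h X true i = 1 := by
      unfold nn
      simp only [if_true]
      rw [if_neg (by omega)]
    have h1 := avoid_ge (n := nn h X true) e T i he hR hc hT hi (nn_le h X hh hX true) hni
    have h5 := mul_le_mul_of_nonneg_left h1 h3
    have h6 := mul_le_mul_of_nonneg_right hq h4
    have h7 := mul_le_mul_of_nonneg_left h6 h3
    have h8 : (0 : ℝ) ≤ ((univ.filter fun ω : Smp cl (nn h X false) =>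
      Disjoint (uni ω) T).card : ℝ) * Fintype.card (Smp cl (nn h X true)) := by positivity
    nlinarith
  · have hni : nn h X false i = 1 := by
      unfold nn
      simp only [Bool.false_eq_true, if_false]
      rw [if_neg hih]
    have h1 := avoid_ge (n := nn h X false) e T i he hR hc hT hi (nn_le h X hh hX false) hni
    have h5 := mul_le_mul_of_nonneg_right h1 h4
    have h6 := mul_le_mul_of_nonneg_right hq h3
    have h7 := mul_le_mul_of_nonneg_right h6 h4
    have h8 : (0 : ℝ) ≤ (Fintype.card (Smp cl (nn h X false)) : ℝ) *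
      ((univ.filter fun ω : Smp cl (nn h X true) => Disjoint (uni ω) T).card : ℝ) := by positivity
    nlinarith

end

/-! ### The union bound -/

theorem sum_sym (E : Finset (Fin b)) (x : ℝ) :
    ∑ T : Finset (Fin b), x ^ (symmDiff E T).card = (x + 1) ^ b := by
  have h1 : ∑ T : Finset (Fin b), x ^ (symmDiff E T).card = ∑ D : Finset (Fin b), x ^ D.card :=
    Function.Bijective.sum_comp (symmDiff_right_involutive E).bijective (fun D => x ^ D.card)
  rw [h1]
  have h := Fintype.sum_pow_mul_eq_add_pow (Fin b) x 1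
  simpa using h

theorem pow_sub_one_le (x : ℝ) (hx : 0 ≤ x) (hb : b * x ≤ 1) : (x + 1) ^ b - 1 ≤ 2 * (b * x) := by
  have h1 : (x + 1) ^ b ≤ Real.exp (b * x) := by
    rw [Real.exp_nat_mul]
    exact pow_le_pow_left₀ (by linarith) (Real.add_one_le_exp x) b
  have h2 : 0 ≤ (b : ℝ) * x := by positivity
  have h3 := Real.abs_exp_sub_one_le (x := b * x) (by rw [abs_of_nonneg h2]; exact hb)
  rw [abs_of_nonneg h2] at h3
  have h4 := le_abs_self (Real.exp (b * x) - 1)
  linarith

theorem sum_ne (E : Finset (Fin b)) (x : ℝ) :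
    ∑ T : Finset (Fin b), (if T ≠ E then x ^ (symmDiff E T).card else 0) = (x + 1) ^ b - 1 := by
  have h1 : ∀ T : Finset (Fin b), (if T ≠ E then x ^ (symmDiff E T).card else 0) =
      x ^ (symmDiff E T).card - if T = E then 1 else 0 := by
    intro T
    by_cases h : T = E
    · subst h
      simp
    · simp [h]
  simp_rw [h1]
  rw [Finset.sum_sub_distrib, sum_sym]
  simp

/-- **[TS-U]** -/
theorem uStmt (hG : GenCount) : UStmt := by
  obtain ⟨C0, hC0⟩ := exists_nat_ge (40 * (3 * Real.exp 770) + 2000)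
  have hK : 0 < 3 * Real.exp 770 := by positivity
  set K : ℝ := 3 * Real.exp 770 with hKdef
  refine ⟨C0, ?_, ?_⟩
  · have : (1 : ℝ) ≤ C0 := by linarith
    exact_mod_cast this
  intro b h e NU cl hh hR he hc hNU len hlen
  classical
  have heR : (10 ^ 6 : ℝ) ≤ e := by exact_mod_cast he
  have he0 : (0 : ℝ) < e := by linarith
  have hC2 : (2000 : ℝ) ≤ C0 := by linarith
  have hC3 : 40 * K ≤ C0 := by linarith
  have hX : ∀ c, len c - 2 * h ≤ 254 * h := fun c => by have := hlen c; omega
  have hh2 : 0 < 2 * h := by omega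
  have heb : e ≤ b := by
    refine le_trans (hc ⟨0, hh2⟩).1 ?_
    have := Finset.card_le_univ (cls cl ⟨0, hh2⟩)
    rwa [Fintype.card_fin] at this
  have hbR : (10 ^ 6 : ℝ) ≤ b := le_trans heR (by exact_mod_cast heb)
  have h2hb : (2 : ℝ) * h ≤ b := by
    have : 2 * h ≤ b := by omega
    exact_mod_cast this
  have hl0 : 0 < Real.log ((b : ℝ) + 1) := Real.log_pos (by linarith)
  have hl1 : 1 ≤ Real.log ((b : ℝ) + 1) := by
    rw [Real.le_log_iff_exp_le (by linarith)]
    have := Real.exp_one_lt_d9
    linarith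
  have hNUe : (C0 : ℝ) * Real.log ((b : ℝ) + 1) ≤ NU / e := by
    rw [le_div_iff₀ he0]
    linarith
  -- the index set
  let G : Finset (Fin (2 * h) × Finset (Fin b)) := univ.filter fun p =>
    p.2.card ≤ e + 2 * h ∧ (∀ j, (p.2 ∩ cls cl j).card ≤ (p.2 ∩ cls cl p.1).card) ∧
    (p.2 \ cls cl p.1).card ≤ 2 * (cls cl p.1 \ p.2).card ∧ 1 ≤ (cls cl p.1 \ p.2).card
  have hne : ∀ c, Nonempty (Col cl (len c - 2 * h)) := by
    intro c
    have h1 : ∀ t, Nonempty (Smp cl (nn h (len c - 2 * h) t)) := by
      intro t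
      rw [← Fintype.card_pos_iff, card_smp]
      refine Finset.prod_pos fun j _ => Nat.choose_pos ?_
      have h2 := nn_le h (len c - 2 * h) hh (hX c) t j
      have h3 := (hc j).1
      omega
    exact ⟨(true, (h1 false).some, (h1 true).some)⟩
  have key := hG NU (fun c => Col cl (len c - 2 * h)) G (Fin b)
    (fun c p => univ.filter fun ω => Disjoint (col ω) p.1.2)
    (fun p => (NU : ℝ) * (cls cl p.1.1 \ p.1.2).card / (K * e))
    (fun c p => univ.filter fun ω => p ∈ col ω) (256 / e) (C0 * NU / e) (by positivity)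
    (fun p => by positivity) ?_ ?_ ?_
  · obtain ⟨ω, hω1, hω2⟩ := key
    refine ⟨fun c => col (ω c), fun c => ?_, fun c => miss_col _, fun p => ?_, ?_⟩
    · rw [card_col hh]
      have := (hlen c).1
      omega
    · have h1 := hω2 p
      have h2 : dgr (fun c => col (ω c)) p ≤ C0 * NU / e := by
        refine le_trans (le_of_eq ?_) h1
        unfold dgr
        congr 1
        ext c
        simp
      calc e * dgr (fun c => col (ω c)) p ≤ e * (C0 * NU / e) := Nat.mul_le_mul_left _ h2
        _ ≤ C0 * NU := Nat.mul_div_le _ _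
    · intro T i hT hi hs
      rcases Nat.eq_zero_or_pos (cls cl i \ T).card with h0 | h0
      · rw [h0, Nat.mul_zero]
        exact Nat.zero_le _
      · have hmem : (i, T) ∈ G := by
          simp only [G, mem_filter, mem_univ, true_and]
          exact ⟨hT, hi, hs, h0⟩
        have h1 := hω1 ⟨(i, T), hmem⟩
        simp only at h1
        have h2 : (univ.filter fun c => ω c ∈ (univ.filter fun ω : Col cl (len c - 2 * h) =>
            Disjoint (col ω) T)).card = (univ.filter fun c => Disjoint (col (ω c)) T).card := by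
          congr 1
          ext c
          simp
        rw [h2, div_le_iff₀ (by positivity)] at h1
        have h3 : (NU : ℝ) * (cls cl i \ T).card ≤
            C0 * e * (univ.filter fun c => Disjoint (col (ω c)) T).card := by
          refine le_trans h1 ?_
          have h4 : (0 : ℝ) ≤ e * (univ.filter fun c => Disjoint (col (ω c)) T).card := by
            positivity
          have h5 : 8 * K ≤ C0 := by linarith
          nlinarith
        exact_mod_cast h3
  · -- expected numbers of misses
    intro p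
    have hp := p.2
    simp only [G, mem_filter, mem_univ, true_and] at hp
    have h1 : ∀ c ∈ (univ : Finset (Fin NU)), ((cls cl p.1.1 \ p.1.2).card : ℝ) / (K * e) ≤
        ((univ.filter fun ω : Col cl (len c - 2 * h) => Disjoint (col ω) p.1.2).card : ℝ) /
          Fintype.card (Col cl (len c - 2 * h)) := by
      intro c _
      have hpos : (0 : ℝ) < Fintype.card (Col cl (len c - 2 * h)) := by
        have := hne c
        exact_mod_cast Fintype.card_pos
      rw [le_div_iff₀ hpos]
      exact col_avoid_ge hh (hX c) he hR hc p.1.2 p.1.1 hp.1 hp.2.1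
    have h2 := Finset.card_nsmul_le_sum _ _ _ h1
    rw [card_univ, Fintype.card_fin, nsmul_eq_mul, ← mul_div_assoc] at h2
    exact h2
  · intro c p
    exact col_mem_le hh (hX c) he (fun j => (hc j).1) p
  · -- the union bound
    set x : ℝ := Real.exp (-(3 * Real.log ((b : ℝ) + 1))) with hx
    have hx0 : 0 < x := Real.exp_pos _
    have hxv : x = (((b : ℝ) + 1) ^ 3)⁻¹ := by
      rw [hx, Real.exp_neg]
      congr 1
      rw [show (3 : ℝ) * Real.log ((b : ℝ) + 1) = ((3 : ℕ) : ℝ) * Real.log ((b : ℝ) + 1) by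
        norm_num, Real.exp_nat_mul, Real.exp_log (by linarith)]
    have hbx : (b : ℝ) * x ≤ 1 / ((b : ℝ) + 1) ^ 2 := by
      rw [hxv, ← div_eq_mul_inv, div_le_div_iff₀ (by positivity) (by positivity)]
      have : (0 : ℝ) ≤ ((b : ℝ) + 1) ^ 2 := by positivity
      nlinarith
    have hbig : (1 : ℝ) / ((b : ℝ) + 1) ^ 2 ≤ 1 := by
      rw [div_le_one (by positivity)]
      nlinarith
    have hS1 : ∑ p : G, Real.exp (-((NU : ℝ) * (cls cl p.1.1 \ p.1.2).card / (K * e) / 4)) ≤
        1 / 4 := by
      have h1 : ∀ p : G, Real.exp (-((NU : ℝ) * (cls cl p.1.1 \ p.1.2).card / (K * e) / 4)) ≤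
          x ^ (symmDiff (cls cl p.1.1) p.1.2).card := by
        intro p
        have hp := p.2
        simp only [G, mem_filter, mem_univ, true_and] at hp
        obtain ⟨-, -, hp3, hp4⟩ := hp
        rw [hx, ← Real.exp_nat_mul]
        apply Real.exp_le_exp.2
        have h2 : (symmDiff (cls cl p.1.1) p.1.2).card ≤ 3 * (cls cl p.1.1 \ p.1.2).card := by
          rw [symmDiff_def]
          refine le_trans (Finset.card_union_le _ _) ?_
          omega
        have h2R : ((symmDiff (cls cl p.1.1) p.1.2).card : ℝ) ≤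
            3 * (cls cl p.1.1 \ p.1.2).card := by exact_mod_cast h2
        have hk0 : (0 : ℝ) ≤ (cls cl p.1.1 \ p.1.2).card := Nat.cast_nonneg _
        have h3 : (NU : ℝ) * (cls cl p.1.1 \ p.1.2).card / (K * e) / 4 =
            (NU / e) * ((cls cl p.1.1 \ p.1.2).card / (4 * K)) := by
          field_simp
        rw [h3]
        have h4 : (C0 : ℝ) * Real.log ((b : ℝ) + 1) * ((cls cl p.1.1 \ p.1.2).card / (4 * K)) ≤
            (NU / e) * ((cls cl p.1.1 \ p.1.2).card / (4 * K)) :=
          mul_le_mul_of_nonneg_right hNUe (by positivity)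
        have h5 : 9 * ((cls cl p.1.1 \ p.1.2).card : ℝ) ≤
            C0 * ((cls cl p.1.1 \ p.1.2).card / (4 * K)) := by
          rw [← mul_div_assoc, le_div_iff₀ (by positivity)]
          nlinarith
        have h6 : 9 * ((cls cl p.1.1 \ p.1.2).card : ℝ) * Real.log ((b : ℝ) + 1) ≤
            C0 * ((cls cl p.1.1 \ p.1.2).card / (4 * K)) * Real.log ((b : ℝ) + 1) :=
          mul_le_mul_of_nonneg_right h5 hl0.le
        have h7 : ((symmDiff (cls cl p.1.1) p.1.2).card : ℝ) * (3 * Real.log ((b : ℝ) + 1)) ≤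
            3 * (cls cl p.1.1 \ p.1.2).card * (3 * Real.log ((b : ℝ) + 1)) :=
          mul_le_mul_of_nonneg_right h2R (by positivity)
        linarith
      have h8 : ∑ p : G, x ^ (symmDiff (cls cl p.1.1) p.1.2).card =
          ∑ p ∈ G, x ^ (symmDiff (cls cl p.1) p.2).card :=
        Finset.sum_coe_sort G (fun p => x ^ (symmDiff (cls cl p.1) p.2).card)
      have h9 : ∑ p ∈ G, x ^ (symmDiff (cls cl p.1) p.2).card ≤
          ∑ p : Fin (2 * h) × Finset (Fin b),
            (if p.2 ≠ cls cl p.1 then x ^ (symmDiff (cls cl p.1) p.2).card else 0) := by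
        rw [← Finset.sum_filter]
        refine Finset.sum_le_sum_of_subset_of_nonneg ?_ fun _ _ _ => by positivity
        intro p hp
        simp only [G, mem_filter, mem_univ, true_and] at hp ⊢
        intro h10
        rw [h10] at hp
        simp at hp
      have h10 : ∑ p : Fin (2 * h) × Finset (Fin b),
            (if p.2 ≠ cls cl p.1 then x ^ (symmDiff (cls cl p.1) p.2).card else 0) =
          (2 * h) * ((x + 1) ^ b - 1) := by
        rw [Fintype.sum_prod_type]
        simp only
        rw [Finset.sum_congr rfl fun i _ => sum_ne (cls cl i) x]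
        rw [Finset.sum_const, card_univ, Fintype.card_fin, nsmul_eq_mul]
        push_cast
        ring
      have h11 : (x + 1) ^ b - 1 ≤ 2 * (b * x) := pow_sub_one_le x hx0.le (by linarith)
      have h12 : (0 : ℝ) ≤ 2 * h := by positivity
      have h13 : (2 * h : ℝ) * ((x + 1) ^ b - 1) ≤ b * (2 * (1 / ((b : ℝ) + 1) ^ 2)) := by
        calc (2 * h : ℝ) * ((x + 1) ^ b - 1) ≤ (2 * h) * (2 * (b * x)) :=
              mul_le_mul_of_nonneg_left h11 h12
          _ ≤ b * (2 * (b * x)) := mul_le_mul_of_nonneg_right h2hb (by positivity)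
          _ ≤ _ := by
              apply mul_le_mul_of_nonneg_left _ (by positivity)
              linarith
      have h14 : (b : ℝ) * (2 * (1 / ((b : ℝ) + 1) ^ 2)) ≤ 1 / 4 := by
        rw [show (b : ℝ) * (2 * (1 / ((b : ℝ) + 1) ^ 2)) = (2 * b) / ((b : ℝ) + 1) ^ 2 by ring,
          div_le_div_iff₀ (by positivity) (by norm_num)]
        nlinarith
      have h15 : ∑ p : G, Real.exp (-((NU : ℝ) * (cls cl p.1.1 \ p.1.2).card / (K * e) / 4)) ≤
          ∑ p : G, x ^ (symmDiff (cls cl p.1.1) p.1.2).card :=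
        Finset.sum_le_sum fun p _ => h1 p
      linarith
    have hS2 : (Fintype.card (Fin b) : ℝ) *
        (3 * NU * (256 / e) / (((C0 * NU / e : ℕ) : ℝ) + 1)) ^ (C0 * NU / e + 1) ≤ 1 / 4 := by
      set P : ℕ := C0 * NU / e with hP
      have hP1 : (C0 : ℝ) * (NU / e) ≤ (P : ℝ) + 1 := by
        have h1 : C0 * NU < e * (P + 1) := by
          rw [hP]
          exact Nat.lt_mul_div_succ _ (by omega)
        have h2 : (C0 : ℝ) * NU < e * ((P : ℝ) + 1) := by exact_mod_cast h1
        rw [← mul_div_assoc, div_le_iff₀ he0]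
        linarith
      have hNe : 0 ≤ (NU : ℝ) / e := by positivity
      have hbase : 3 * (NU : ℝ) * (256 / e) / ((P : ℝ) + 1) ≤ 1 / 2 := by
        rw [div_le_iff₀ (by positivity)]
        have h3 : 3 * (NU : ℝ) * (256 / e) = 768 * (NU / e) := by ring
        rw [h3]
        nlinarith
      have hb0 : 0 ≤ 3 * (NU : ℝ) * (256 / e) / ((P : ℝ) + 1) := by positivity
      have h4 : (3 * (NU : ℝ) * (256 / e) / ((P : ℝ) + 1)) ^ (P + 1) ≤
          Real.exp (-(2 * Real.log ((b : ℝ) + 1))) := by
        have h5 : (3 * (NU : ℝ) * (256 / e) / ((P : ℝ) + 1)) ≤ Real.exp (-(1 / 2)) := by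
          have := Real.add_one_le_exp (-(1 / 2) : ℝ)
          linarith
        refine le_trans (pow_le_pow_left₀ hb0 h5 (P + 1)) ?_
        rw [← Real.exp_nat_mul]
        apply Real.exp_le_exp.2
        push_cast
        have h6 : 4 * Real.log ((b : ℝ) + 1) ≤ (P : ℝ) + 1 := by
          have h7 : (2000 : ℝ) * (NU / e) ≤ C0 * (NU / e) := mul_le_mul_of_nonneg_right hC2 hNe
          have h8 : (2000 : ℝ) * Real.log ((b : ℝ) + 1) ≤ C0 * Real.log ((b : ℝ) + 1) :=
            mul_le_mul_of_nonneg_right hC2 hl0.le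
          linarith
        linarith
      have h9 : Real.exp (-(2 * Real.log ((b : ℝ) + 1))) = (((b : ℝ) + 1) ^ 2)⁻¹ := by
        rw [Real.exp_neg]
        congr 1
        rw [show (2 : ℝ) * Real.log ((b : ℝ) + 1) = ((2 : ℕ) : ℝ) * Real.log ((b : ℝ) + 1) by
          norm_num, Real.exp_nat_mul, Real.exp_log (by linarith)]
      rw [Fintype.card_fin]
      calc (b : ℝ) * (3 * NU * (256 / e) / ((P : ℝ) + 1)) ^ (P + 1)
          ≤ b * (((b : ℝ) + 1) ^ 2)⁻¹ := by
            rw [← h9]
            exact mul_le_mul_of_nonneg_left h4 (by positivity)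
        _ ≤ 1 / 4 := by
            rw [← div_eq_mul_inv, div_le_div_iff₀ (by positivity) (by norm_num)]
            nlinarith
    have hfin := add_le_add hS1 hS2
    refine lt_of_le_of_lt hfin (by norm_num)

end Vale.Agent.P181.TS.H547
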